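import Vale.Agent.P110.Ultraflat.Pack.Colour

/-!
P130, flat two-variable polynomials, packing: colours are labels, each form accepts a set of labels, mirror blocks get
flipped labels, and a form needs a unit coefficient somewhere only.
-/

namespace Vale.Agent.P130.Flat.Pack

open Finset
open Vale.Agent.P110.Ultraflat.Pack (avg avg_mono avg_const avg_sum lin card_lin_le card_lin2_le card_fibre_le blk pair sgn size cst Bad card_pair_eq_le card_offset_le minor_le natAbs_le_size sum_le_of_mul_le blk_lt)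

variable {d : ℕ} {ι : Type} [Fintype ι] [DecidableEq ι] (v : ι → Fin d → ℤ) (z : Fin d) (L P : ℕ)
  [NeZero L] [NeZero P] {α : Type} [Fintype α] [DecidableEq α] (flip : α ≃ α) (S : ι → Finset α)

/-- The label of a residue: mirror blocks get flipped labels. -/
def col (σ : Fin P → α) (x : ZMod (2 * P * L)) : α :=
  if sgn L P x then σ (pair L P x) else flip (σ (pair L P x))

/-- The labels of the pair that put a residue in a given set. -/
def allowed (s : Bool) (T : Finset α) : Finset α := if s then T else T.map flip.symm.toEmbedding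

/-- The share of labels of a form. -/
noncomputable def share (i : ι) : ℝ := (#(S i) : ℝ) / Fintype.card α

/-- A residue vector is good if every form puts it well inside a block with an accepted label. -/
def Good (σ : Fin P → α) (g : Fin d → ZMod (2 * P * L)) : Prop :=
  ∀ i, (lin (v i) g).val % L + (v i z).natAbs ≤ L ∧ col L P flip σ (lin (v i) g) ∈ S i

omit [Fintype α] [DecidableEq α] [NeZero L] in
theorem col_mem_iff (σ : Fin P → α) (x : ZMod (2 * P * L)) (T : Finset α) :
    col L P flip σ x ∈ T ↔ σ (pair L P x) ∈ allowed flip (sgn L P x) T := by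
  cases h : sgn L P x <;> simp [col, allowed, h, Finset.mem_map_equiv]

omit [Fintype α] [DecidableEq α] in
theorem card_allowed (s : Bool) (T : Finset α) : #(allowed flip s T) = #T := by
  cases s <;> simp [allowed]

/-- Labels in prescribed sets at distinct positions are independent. -/
theorem avg_prescribed_mem [Nonempty α] {κ : Type} [Fintype κ] [DecidableEq κ] (p : κ → Fin P)
    (hp : Function.Injective p) (T : κ → Finset α) :
    avg (fun _ : α => (1 : ℝ) / Fintype.card α) (fun σ : Fin P → α => if ∀ k, σ (p k) ∈ T k then (1 : ℝ) else 0) =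
      ∏ k, (#(T k) : ℝ) / Fintype.card α := by
  classical
  have hsum : ∑ _a : α, (1 : ℝ) / Fintype.card α = 1 := by
    rw [Finset.sum_const, Finset.card_univ, nsmul_eq_mul, mul_one_div, div_self]
    exact Nat.cast_ne_zero.2 Fintype.card_ne_zero
  rw [show (fun σ : Fin P → α => if ∀ k, σ (p k) ∈ T k then (1 : ℝ) else 0) = fun σ =>
      ∑ t ∈ Fintype.piFinset T, if ∀ k, σ (p k) = t k then (1 : ℝ) else 0 from funext fun σ => ?_, avg_sum,
    Finset.sum_congr rfl fun t _ => Vale.Agent.P110.Ultraflat.Pack.avg_prescribed hsum p hp t]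
  · rw [← Finset.prod_univ_sum T fun _ _ => (1 : ℝ) / Fintype.card α]
    exact Finset.prod_congr rfl fun k _ => by simp [div_eq_mul_inv]
  · simp only [← funext_iff]
    rw [Finset.sum_ite_eq]
    simp [Fintype.mem_piFinset]

section Counts

variable {v : ι → Fin d → ℤ} {z : Fin d} (u : ι → Fin d) (hz : ∀ i, v i z ≠ 0)
  (hv : ∀ i, IsUnit (v i (u i) : ZMod (2 * P * L)))
  (hind : ∀ i j, i ≠ j → ∃ b, v i (u i) * v j b - v j (u i) * v i b ≠ 0)

include hv hind

omit [DecidableEq ι] in
theorem card_collide_le (i j : ι) (hij : i ≠ j) (r : ZMod (2 * P * L)) (p : Fin P) :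
    #{g : Fin d → ZMod (2 * P * L) | lin (v i) g = r ∧ pair L P (lin (v j) g) = p} * (2 * P * L) ≤
      4 * size v ^ 2 * L * (2 * P * L) ^ (d - 1) := by
  classical
  obtain ⟨b, hb⟩ := hind i j hij
  have hd : 2 ≤ d := by
    by_contra h
    exact hb (by rw [show b = u i from Fin.ext (by omega), sub_eq_zero, mul_comm])
  rw [show (2 * P * L) ^ (d - 1) = (2 * P * L) ^ (d - 2) * (2 * P * L) by rw [← pow_succ]; congr 1; omega,
    ← mul_assoc (4 * size v ^ 2 * L)]
  refine Nat.mul_le_mul_right _ (le_trans (le_trans (Finset.card_le_card fun g hg => ?_)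
    (card_lin2_le (v i) (u i) (hv i) (v j) b hb r ({x : ZMod (2 * P * L) | pair L P x = p} : Finset _))) ?_)
  · simp only [Finset.mem_filter, Finset.mem_univ, true_and] at hg ⊢
    exact hg
  refine Nat.mul_le_mul_right _ ((Nat.mul_le_mul (minor_le v i j b (u i)) (card_pair_eq_le L P p)).trans ?_)
  exact le_of_eq (by ring)

include hz

theorem card_bad_le [DecidablePred (Bad v z L P)] :
    #{g | Bad v z L P g} ≤ cst v * (P + L) * (2 * P * L) ^ (d - 1) := by
  classical
  set J := Fintype.card ι
  set S := size v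
  have hQ : 0 < 2 * P * L := Nat.pos_of_ne_zero (NeZero.ne _)
  let A := (Finset.univ : Finset ι).biUnion fun i =>
    ({g : Fin d → ZMod (2 * P * L) | L < (lin (v i) g).val % L + (v i z).natAbs} : Finset _)
  let B := (Finset.univ : Finset (ι × ι)).biUnion fun ij =>
    ({g : Fin d → ZMod (2 * P * L) | ij.1 ≠ ij.2 ∧ pair L P (lin (v ij.1) g) = pair L P (lin (v ij.2) g)} :
      Finset _)
  have hsub : ({g | Bad v z L P g} : Finset _) ⊆ A ∪ B := fun g hg => by
    simp only [Finset.mem_filter, Finset.mem_univ, true_and] at hg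
    rcases hg with ⟨i, hi⟩ | ⟨i, j, hij⟩
    · exact Finset.mem_union_left _ (Finset.mem_biUnion.2 ⟨i, Finset.mem_univ _, by simpa using hi⟩)
    · exact Finset.mem_union_right _ (Finset.mem_biUnion.2 ⟨(i, j), Finset.mem_univ _, by simpa using hij⟩)
  have hA : #A ≤ J * (S * (2 * P * S) * (2 * P * L) ^ (d - 1)) := by
    refine Finset.card_biUnion_le.trans ?_
    refine (Finset.sum_le_card_nsmul _ _ _ fun i _ => ?_).trans (le_of_eq (smul_eq_mul _ _))
    have hm := natAbs_le_size v i z
    refine le_trans (le_trans (Finset.card_le_card fun g hg => ?_)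
      (card_lin_le (v i) z (hz i) ({x : ZMod (2 * P * L) | L < x.val % L + (v i z).natAbs} : Finset _))) ?_
    · simp only [Finset.mem_filter, Finset.mem_univ, true_and] at hg ⊢
      exact hg
    · exact Nat.mul_le_mul_right _
        (Nat.mul_le_mul hm ((card_offset_le L P _).trans (Nat.mul_le_mul_left _ hm)))
  have hB : #B ≤ J * J * (4 * S ^ 2 * L * (2 * P * L) ^ (d - 1)) := by
    refine Finset.card_biUnion_le.trans ?_
    refine (Finset.sum_le_card_nsmul _ _ (4 * S ^ 2 * L * (2 * P * L) ^ (d - 1)) fun ij _ => ?_).trans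
      (le_of_eq (by simp [J]))
    by_cases hij : ij.1 = ij.2
    · simp [hij]
    rw [Finset.card_eq_sum_card_fiberwise (f := fun g => lin (v ij.1) g) (t := Finset.univ)
      fun _ _ => Finset.mem_univ _]
    refine (sum_le_of_mul_le (M := 1) hQ (fun r => le_trans (Nat.mul_le_mul_right _
      (Finset.card_le_card fun g hg => ?_)) (card_collide_le L P u hv hind ij.1 ij.2 hij r (pair L P r)))
      (by simp)).trans (le_of_eq (one_mul _))
    simp only [Finset.mem_filter, Finset.mem_univ, true_and] at hg ⊢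
    exact ⟨hg.2, by rw [← hg.1.2, hg.2]⟩
  refine (Finset.card_le_card hsub).trans ((Finset.card_union_le _ _).trans ((Nat.add_le_add hA hB).trans ?_))
  rw [cst]
  have hJ : J * (S * (2 * P * S)) + J * J * (4 * S ^ 2 * L) ≤ 4 * (J + 1) ^ 2 * S ^ 2 * (P + L) := by
    nlinarith [sq_nonneg J, Nat.zero_le (J * S * S * P), Nat.zero_le (J * J * S * S * P),
      Nat.zero_le (J * S * S * L), Nat.zero_le (S * S * L), Nat.zero_le (S * S * P)]
  calc _ = (J * (S * (2 * P * S)) + J * J * (4 * S ^ 2 * L)) * (2 * P * L) ^ (d - 1) := by ring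
    _ ≤ _ := Nat.mul_le_mul_right _ hJ

/-- Pairs of vectors on a common fibre with a collision. -/
theorem card_badPair_le (m : ι)
    [DecidablePred fun q : (Fin d → ZMod (2 * P * L)) × (Fin d → ZMod (2 * P * L)) =>
      lin (v m) q.1 = lin (v m) q.2 ∧ (Bad v z L P q.1 ∨ Bad v z L P q.2 ∨
        ∃ j k, j ≠ m ∧ k ≠ m ∧ pair L P (lin (v j) q.1) = pair L P (lin (v k) q.2))] :
    #{q : (Fin d → ZMod (2 * P * L)) × (Fin d → ZMod (2 * P * L)) |
      lin (v m) q.1 = lin (v m) q.2 ∧ (Bad v z L P q.1 ∨ Bad v z L P q.2 ∨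
        ∃ j k, j ≠ m ∧ k ≠ m ∧ pair L P (lin (v j) q.1) = pair L P (lin (v k) q.2))} ≤
      3 * cst v * (P + L) * (2 * P * L) ^ (2 * (d - 1)) := by
  classical
  set Q := 2 * P * L
  have hQ : 0 < Q := Nat.pos_of_ne_zero (NeZero.ne _)
  have hd1 : 0 < d := Fin.pos z
  let B : Finset (Fin d → ZMod (2 * P * L)) := {g | Bad v z L P g}
  let U : Finset ((Fin d → ZMod (2 * P * L)) × (Fin d → ZMod (2 * P * L))) :=
    {q | lin (v m) q.1 = lin (v m) q.2}
  let C1 := U.filter fun q => q.1 ∈ B
  let C2 := U.filter fun q => q.2 ∈ B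
  let C3 := (Finset.univ : Finset (ι × ι)).biUnion fun jk =>
    U.filter fun q => jk.2 ≠ m ∧ pair L P (lin (v jk.1) q.1) = pair L P (lin (v jk.2) q.2)
  have hfib : ∀ r, #{g : Fin d → ZMod (2 * P * L) | lin (v m) g = r} ≤ Q ^ (d - 1) :=
    card_fibre_le (v m) (u m) (hv m)
  have hB : #B ≤ cst v * (P + L) * Q ^ (d - 1) := card_bad_le L P u hz hv hind
  have h1 : #C1 ≤ Q ^ (d - 1) * #B := by
    refine (Finset.card_le_mul_card_image (f := fun q => q.1) C1 (Q ^ (d - 1)) fun g _ => ?_).trans
      (Nat.mul_le_mul_left _ (Finset.card_le_card ?_))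
    · refine le_trans (Finset.card_le_card_of_injOn (fun q => q.2) (fun q hq => ?_) ?_) (hfib (lin (v m) g))
      · simp only [C1, U, Finset.coe_filter, Finset.mem_filter, Finset.mem_univ, true_and,
          Set.mem_ofPred_eq] at hq ⊢
        rw [← hq.1.1, hq.2]
      · intro q hq q' hq' e
        simp only [Finset.coe_filter, Set.mem_ofPred_eq] at hq hq'
        exact Prod.ext (hq.2.trans hq'.2.symm) e
    · intro g hg
      simp only [C1, Finset.mem_image, Finset.mem_filter] at hg
      obtain ⟨q, hq, rfl⟩ := hg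
      exact hq.2
  have h2 : #C2 ≤ Q ^ (d - 1) * #B := by
    refine (Finset.card_le_mul_card_image (f := fun q => q.2) C2 (Q ^ (d - 1)) fun g _ => ?_).trans
      (Nat.mul_le_mul_left _ (Finset.card_le_card ?_))
    · refine le_trans (Finset.card_le_card_of_injOn (fun q => q.1) (fun q hq => ?_) ?_) (hfib (lin (v m) g))
      · simp only [C2, U, Finset.coe_filter, Finset.mem_filter, Finset.mem_univ, true_and,
          Set.mem_ofPred_eq] at hq ⊢
        rw [hq.1.1, hq.2]
      · intro q hq q' hq' e
        simp only [Finset.coe_filter, Set.mem_ofPred_eq] at hq hq'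
        exact Prod.ext e (hq.2.trans hq'.2.symm)
    · intro g hg
      simp only [C2, Finset.mem_image, Finset.mem_filter] at hg
      obtain ⟨q, hq, rfl⟩ := hg
      exact hq.2
  have h3 : #C3 ≤ Fintype.card (ι × ι) * (4 * size v ^ 2 * L * Q ^ (2 * (d - 1))) := by
    refine Finset.card_biUnion_le.trans
      ((Finset.sum_le_card_nsmul _ _ _ fun jk _ => ?_).trans (le_of_eq (smul_eq_mul _ _)))
    by_cases hk : jk.2 = m
    · simp [hk]
    rw [Finset.card_eq_sum_card_fiberwise (f := fun q => q.1) (t := Finset.univ)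
      fun _ _ => Finset.mem_univ _]
    refine (sum_le_of_mul_le (M := Q ^ (d - 1)) hQ (fun g => le_trans (Nat.mul_le_mul_right _
      (Finset.card_le_card_of_injOn (fun q => q.2) (fun q hq => ?_) ?_))
      (card_collide_le L P u hv hind m jk.2 (Ne.symm hk) (lin (v m) g) (pair L P (lin (v jk.1) g)))) ?_).trans ?_
    · simp only [U, Finset.coe_filter, Finset.mem_filter, Finset.mem_univ, true_and,
        Set.mem_ofPred_eq] at hq ⊢
      exact ⟨by rw [← hq.1.1, hq.2], by rw [← hq.1.2.2, hq.2]⟩
    · intro q hq q' hq' e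
      simp only [Finset.coe_filter, Set.mem_ofPred_eq] at hq hq'
      exact Prod.ext (hq.2.trans hq'.2.symm) e
    · exact le_of_eq (by rw [Fintype.card_fun, Fintype.card_fin, ZMod.card, ← pow_succ]; congr 1; omega)
    · exact le_of_eq (by rw [show 2 * (d - 1) = d - 1 + (d - 1) from two_mul _, pow_add]; ring)
  refine le_trans (Finset.card_le_card (t := C1 ∪ C2 ∪ C3) fun q hq => ?_) ?_
  · simp only [Finset.mem_filter, Finset.mem_univ, true_and] at hq
    rcases hq.2 with h | h | ⟨j, k, -, hk, h⟩
    · simp [C1, U, B, hq.1, h]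
    · simp [C2, U, B, hq.1, h]
    · refine Finset.mem_union_right _ (Finset.mem_biUnion.2 ⟨(j, k), Finset.mem_univ _, ?_⟩)
      simp [U, hq.1, hk, h]
  have hc : Fintype.card (ι × ι) * (4 * size v ^ 2 * L) ≤ cst v * (P + L) := by
    rw [cst, Fintype.card_prod]
    calc _ ≤ (Fintype.card ι + 1) * (Fintype.card ι + 1) * (4 * size v ^ 2 * (P + L)) :=
          Nat.mul_le_mul (Nat.mul_le_mul (Nat.le_succ _) (Nat.le_succ _))
            (Nat.mul_le_mul_left _ (Nat.le_add_left _ _))
      _ = _ := by ring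
  calc _ ≤ #C1 + #C2 + #C3 :=
        (Finset.card_union_le _ _).trans (Nat.add_le_add_right (Finset.card_union_le _ _) _)
    _ ≤ Q ^ (d - 1) * (cst v * (P + L) * Q ^ (d - 1)) +
        Q ^ (d - 1) * (cst v * (P + L) * Q ^ (d - 1)) +
        cst v * (P + L) * Q ^ (2 * (d - 1)) := by
        refine Nat.add_le_add (Nat.add_le_add (h1.trans (Nat.mul_le_mul_left _ hB))
          (h2.trans (Nat.mul_le_mul_left _ hB))) (h3.trans ?_)
        calc _ = Fintype.card (ι × ι) * (4 * size v ^ 2 * L) * Q ^ (2 * (d - 1)) := by ring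
          _ ≤ _ := Nat.mul_le_mul_right _ hc
    _ = _ := by rw [show 2 * (d - 1) = d - 1 + (d - 1) from two_mul _, pow_add]; ring

end Counts

section Moments

variable {v : ι → Fin d → ℤ} {z : Fin d}

/-- The uniform weight. -/
noncomputable def wgt (α : Type) [Fintype α] : α → ℝ := fun _ => 1 / Fintype.card α

variable [Nonempty α]

omit [DecidableEq α] in
theorem wgt_sum : ∑ a, wgt α a = 1 := by
  simp [wgt]

omit [Fintype ι] [DecidableEq ι] [NeZero L] in
theorem avg_col (i : ι) (r : ZMod (2 * P * L)) :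
    avg (wgt α) (fun σ => if col L P flip σ r ∈ S i then (1 : ℝ) else 0) = share S i := by
  rw [show (fun σ : Fin P → α => if col L P flip σ r ∈ S i then (1 : ℝ) else 0) = fun σ =>
      if ∀ _ : Unit, σ (pair L P r) ∈ allowed flip (sgn L P r) (S i) then (1 : ℝ) else 0 from
    funext fun σ => if_congr ((col_mem_iff L P flip σ r _).trans ⟨fun h _ => h, fun h => h ()⟩) rfl rfl,
    show wgt α = fun _ : α => (1 : ℝ) / Fintype.card α from rfl,
    avg_prescribed_mem P (fun _ : Unit => pair L P r) (fun a b _ => Subsingleton.elim a b)]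
  simp [share, card_allowed]

open Classical in
theorem avg_good {g : Fin d → ZMod (2 * P * L)} (hg : ¬ Bad v z L P g) :
    avg (wgt α) (fun σ => if Good v z L P flip S σ g then (1 : ℝ) else 0) = ∏ i, share S i := by
  rw [Bad, not_or, not_exists, not_exists] at hg
  rw [show (fun σ : Fin P → α => if Good v z L P flip S σ g then (1 : ℝ) else 0) = fun σ =>
      if ∀ i, σ (pair L P (lin (v i) g)) ∈ allowed flip (sgn L P (lin (v i) g)) (S i) then (1 : ℝ) else 0 from
    funext fun σ => if_congr ⟨fun h i => (col_mem_iff L P flip σ _ _).1 (h i).2,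
      fun h i => ⟨not_lt.1 (hg.1 i), (col_mem_iff L P flip σ _ _).2 (h i)⟩⟩ rfl rfl,
    show wgt α = fun _ : α => (1 : ℝ) / Fintype.card α from rfl,
    avg_prescribed_mem P (fun i => pair L P (lin (v i) g))
      fun i j e => by_contra fun h => hg.2 i ⟨j, h, e⟩]
  exact Finset.prod_congr rfl fun i _ => by simp [share, card_allowed]

open Classical in
theorem avg_good_pair (m : ι) (hm0 : 0 < share S m)
    {g g' : Fin d → ZMod (2 * P * L)} (hm : lin (v m) g = lin (v m) g') (h1 : ¬ Bad v z L P g)
    (h2 : ¬ Bad v z L P g')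
    (h3 : ¬ ∃ j k, j ≠ m ∧ k ≠ m ∧ pair L P (lin (v j) g) = pair L P (lin (v k) g')) :
    avg (wgt α) (fun σ => if Good v z L P flip S σ g ∧ Good v z L P flip S σ g' then (1 : ℝ) else 0) ≤
      (∏ i, share S i) ^ 2 / share S m := by
  let x : ι ⊕ {i // i ≠ m} → ZMod (2 * P * L) :=
    Sum.elim (fun i => lin (v i) g) fun i => lin (v i) g'
  let c : ι ⊕ {i // i ≠ m} → ι := Sum.elim id Subtype.val
  have hinj : Function.Injective fun k => pair L P (x k) := by
    rintro (i | i) (j | j) e <;> simp only [x, Sum.elim_inl, Sum.elim_inr] at e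
    · exact congrArg _ (by_contra fun h => h1 (.inr ⟨i, j, h, e⟩))
    · exfalso
      by_cases hi : i = m
      · subst hi
        rw [hm] at e
        exact h2 (.inr ⟨i, j, j.2.symm, e⟩)
      · exact h3 ⟨i, j, hi, j.2, e⟩
    · exfalso
      by_cases hj : j = m
      · subst hj
        rw [hm] at e
        exact h2 (.inr ⟨i, j, i.2, e⟩)
      · exact h3 ⟨j, i, hj, i.2, e.symm⟩
    · exact congrArg _ (Subtype.ext (by_contra fun h => h2 (.inr ⟨i, j, h, e⟩)))
  refine (avg_mono (w := wgt α) (fun a => by simp [wgt])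
    (G := fun σ => if ∀ k, σ (pair L P (x k)) ∈ allowed flip (sgn L P (x k)) (S (c k)) then (1 : ℝ) else 0)
    fun σ => ?_).trans (le_of_eq ?_)
  · by_cases h : Good v z L P flip S σ g ∧ Good v z L P flip S σ g'
    · rw [if_pos h, if_pos]
      rintro (i | i)
      · exact (col_mem_iff L P flip σ _ _).1 (h.1 i).2
      · exact (col_mem_iff L P flip σ _ _).1 (h.2 i).2
    · rw [if_neg h]
      split_ifs <;> norm_num
  · rw [show wgt α = fun _ : α => (1 : ℝ) / Fintype.card α from rfl, avg_prescribed_mem P _ hinj,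
      Fintype.prod_sum_type]
    simp only [card_allowed, c, Sum.elim_inl, Sum.elim_inr, id]
    show (∏ i, share S i) * ∏ i : {i // i ≠ m}, share S i = _
    rw [← Finset.prod_subtype (Finset.univ.erase m) (fun i => by simp) (share S),
      eq_div_iff hm0.ne', mul_assoc, Finset.prod_erase_mul _ _ (Finset.mem_univ m), sq]

end Moments

end Vale.Agent.P130.Flat.Pack
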