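import Vale.Agent.P110.Ultraflat.Pack.Select
import Vale.Agent.P130.Flat.Pack.Colour

/-!
P130, flat two-variable polynomials, packing: the choice of the labels of the blocks and the deletion of the excess.
-/

namespace Vale.Agent.P130.Flat.Pack

open Finset
open Vale.Agent.P110.Ultraflat.Pack (avg avg_mono avg_const avg_sum avg_add avg_sub avg_mul exists_ge_avg lin
  card_fibre_le blk pair sgn cst Bad excess_le slack_ge loss_le)

open scoped Classical

variable {d : ℕ} {ι : Type} [Fintype ι] [DecidableEq ι] {v : ι → Fin d → ℤ} {z : Fin d} {L P : ℕ}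
  [NeZero L] [NeZero P] {α : Type} [Fintype α] [DecidableEq α] [Nonempty α] {flip : α ≃ α} {S : ι → Finset α}

omit [Fintype ι] [DecidableEq ι] in
theorem card_pairs_le (m : ι) (u : ι → Fin d) (hv : ∀ i, IsUnit (v i (u i) : ZMod (2 * P * L))) :
    #{q : (Fin d → ZMod (2 * P * L)) × (Fin d → ZMod (2 * P * L)) | lin (v m) q.1 = lin (v m) q.2} ≤
      (2 * P * L) ^ (d - 1) * (2 * P * L) ^ d := by
  refine (Finset.card_le_mul_card_image (f := fun q => q.1) _ _ fun g _ => ?_).trans
    (Nat.mul_le_mul_left _ ((Finset.card_le_univ _).trans (le_of_eq (by simp))))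
  refine le_trans (Finset.card_le_card_of_injOn (fun q => q.2) (fun q hq => ?_) ?_)
    (card_fibre_le (v m) (u m) (hv m) (lin (v m) g))
  · simp only [Finset.coe_filter, Finset.mem_filter, Finset.mem_univ, true_and,
      Set.mem_ofPred_eq] at hq ⊢
    rw [← hq.1, hq.2]
  · intro q hq q' hq' e
    simp only [Finset.coe_filter, Set.mem_ofPred_eq] at hq hq'
    exact Prod.ext (hq.2.trans hq'.2.symm) e

omit [Fintype ι] [DecidableEq ι] [DecidableEq α] in
theorem share_le_one (i : ι) : share S i ≤ 1 :=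
  (div_le_one (Nat.cast_pos.2 Fintype.card_pos)).2 (Nat.cast_le.2 (Finset.card_le_univ _))

omit [DecidableEq α] in
theorem wgt_nonneg (a : α) : 0 ≤ wgt α a := by simp [wgt]

section Bounds

variable (u : ι → Fin d) (hz : ∀ i, v i z ≠ 0) (hv : ∀ i, IsUnit (v i (u i) : ZMod (2 * P * L)))
  (hind : ∀ i j, i ≠ j → ∃ b, v i (u i) * v j b - v j (u i) * v i b ≠ 0) (hf : ∀ i, 0 < share S i)

include hz hv hind hf

theorem avg_card_pair_le (m : ι) :
    avg (wgt α) (fun σ => (#{q : (Fin d → ZMod (2 * P * L)) × (Fin d → ZMod (2 * P * L)) |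
        lin (v m) q.1 = lin (v m) q.2 ∧ Good v z L P flip S σ q.1 ∧ Good v z L P flip S σ q.2} : ℝ)) ≤
      ((2 * P * L) ^ (d - 1) * (2 * P * L) ^ d : ℕ) * ((∏ i, share S i) ^ 2 / share S m) +
        (3 * cst v * (P + L) * (2 * P * L) ^ (2 * (d - 1)) : ℕ) := by
  let U : Finset ((Fin d → ZMod (2 * P * L)) × (Fin d → ZMod (2 * P * L))) :=
    {q | lin (v m) q.1 = lin (v m) q.2}
  have hp : 0 ≤ (∏ i, share S i) ^ 2 / share S m := div_nonneg (sq_nonneg _) (hf m).le
  have hw : ∀ a, 0 ≤ wgt α a := wgt_nonneg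
  rw [show (fun σ : Fin P → α =>
      (#{q : (Fin d → ZMod (2 * P * L)) × (Fin d → ZMod (2 * P * L)) |
        lin (v m) q.1 = lin (v m) q.2 ∧ Good v z L P flip S σ q.1 ∧ Good v z L P flip S σ q.2} : ℝ)) =
      fun σ => ∑ q ∈ U, if Good v z L P flip S σ q.1 ∧ Good v z L P flip S σ q.2 then (1 : ℝ) else 0 from
    funext fun σ => by rw [Finset.sum_boole, Finset.filter_filter], avg_sum]
  refine le_trans (Finset.sum_le_sum (g := fun q => (∏ i, share S i) ^ 2 / share S m +
    if Bad v z L P q.1 ∨ Bad v z L P q.2 ∨ ∃ j k, j ≠ m ∧ k ≠ m ∧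
      pair L P (lin (v j) q.1) = pair L P (lin (v k) q.2) then (1 : ℝ) else 0) fun q hq => ?_) ?_
  · split_ifs with h
    · refine le_trans ((avg_mono hw (G := fun _ => 1) fun σ => ?_).trans
        (le_of_eq (avg_const wgt_sum 1))) (le_add_of_nonneg_left hp)
      split_ifs <;> norm_num
    · rw [add_zero]
      exact avg_good_pair L P flip S m (hf m) (Finset.mem_filter.1 hq).2 (fun e => h (.inl e))
        (fun e => h (.inr (.inl e))) fun e => h (.inr (.inr e))
  · rw [Finset.sum_add_distrib, Finset.sum_const, nsmul_eq_mul, Finset.sum_boole]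
    refine add_le_add (mul_le_mul_of_nonneg_right (Nat.cast_le.2 (card_pairs_le m u hv)) hp) ?_
    rw [Finset.filter_filter]
    exact Nat.cast_le.2 (card_badPair_le L P u hz hv hind m)

theorem avg_card_good_ge :
    (((2 * P * L : ℕ) : ℝ) ^ d - (cst v * (P + L) * (2 * P * L) ^ (d - 1) : ℕ)) * ∏ i, share S i ≤
      avg (wgt α) (fun σ => (#{g | Good v z L P flip S σ g} : ℝ)) := by
  have hpi : 0 ≤ ∏ i, share S i := Finset.prod_nonneg fun i _ => (hf i).le
  have hw : ∀ a, 0 ≤ wgt α a := wgt_nonneg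
  rw [show (fun σ : Fin P → α => (#{g | Good v z L P flip S σ g} : ℝ)) =
      fun σ => ∑ g, if Good v z L P flip S σ g then (1 : ℝ) else 0 from
    funext fun σ => (Finset.sum_boole _ _).symm, avg_sum]
  calc _ ≤ ((((2 * P * L : ℕ) : ℝ) ^ d - (#{g | Bad v z L P g} : ℝ)) * ∏ i, share S i) := by
        gcongr
        exact card_bad_le L P u hz hv hind
    _ = ∑ g : Fin d → ZMod (2 * P * L), if Bad v z L P g then 0 else ∏ i, share S i := by
        rw [sub_mul, eq_comm, eq_sub_iff_add_eq, ← Finset.sum_boole, Finset.sum_mul,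
          ← Finset.sum_add_distrib, Finset.sum_congr rfl fun g _ =>
            show (if Bad v z L P g then 0 else ∏ i, share S i) +
              (if Bad v z L P g then (1 : ℝ) else 0) * ∏ i, share S i = ∏ i, share S i by split_ifs <;> simp]
        simp
    _ ≤ _ := by
        refine Finset.sum_le_sum fun g _ => ?_
        split_ifs with h
        · refine (le_of_eq (avg_const wgt_sum 0).symm).trans (avg_mono hw fun σ => ?_)
          split_ifs <;> norm_num
        · exact (avg_good L P flip S h).ge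

/-- The summed second moment of the deviation of a colour's fibres from their expected size. -/
theorem avg_dev_sq_le (m : ι) (e : ℝ)
    (he : (cst v : ℝ) * ((P : ℝ) + L) ≤ e * (2 * P * L : ℕ)) :
    avg (wgt α) (fun σ => ∑ r, ((#{g | lin (v m) g = r ∧ Good v z L P flip S σ g} : ℝ) -
      ((2 * P * L : ℕ) : ℝ) ^ (d - 1) * (∏ i, share S i) / share S m *
        (if col L P flip σ r ∈ S m then 1 else 0)) ^ 2) ≤
      5 * e / share S m * (((2 * P * L : ℕ) : ℝ) ^ (d - 1) * ((2 * P * L : ℕ) : ℝ) ^ d) := by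
  set Q : ℕ := 2 * P * L
  set piF := ∏ i, share S i with hpiF
  set A := (Q : ℝ) ^ (d - 1) * piF / share S m with hA
  have hpt : ∀ σ : Fin P → α,
      ∑ r, ((#{g | lin (v m) g = r ∧ Good v z L P flip S σ g} : ℝ) -
        A * (if col L P flip σ r ∈ S m then 1 else 0)) ^ 2 =
      (#{q : (Fin d → ZMod (2 * P * L)) × (Fin d → ZMod (2 * P * L)) |
        lin (v m) q.1 = lin (v m) q.2 ∧ Good v z L P flip S σ q.1 ∧ Good v z L P flip S σ q.2} : ℝ) -
      2 * A * #{g | Good v z L P flip S σ g} + A ^ 2 * ∑ r, if col L P flip σ r ∈ S m then (1 : ℝ) else 0 := by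
    intro σ
    rw [Finset.card_eq_sum_card_fiberwise (f := fun q => lin (v m) q.1) (t := Finset.univ)
        fun _ _ => Finset.mem_univ _,
      Finset.card_eq_sum_card_fiberwise (f := fun g => lin (v m) g) (t := Finset.univ)
        fun _ _ => Finset.mem_univ _, Nat.cast_sum, Nat.cast_sum, Finset.mul_sum, Finset.mul_sum,
      ← Finset.sum_sub_distrib, ← Finset.sum_add_distrib]
    refine Finset.sum_congr rfl fun r _ => ?_
    have hsq : #(({q : (Fin d → ZMod (2 * P * L)) × (Fin d → ZMod (2 * P * L)) |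
          lin (v m) q.1 = lin (v m) q.2 ∧ Good v z L P flip S σ q.1 ∧ Good v z L P flip S σ q.2} : Finset _).filter
        fun q => lin (v m) q.1 = r) = #{g | lin (v m) g = r ∧ Good v z L P flip S σ g} ^ 2 := by
      rw [sq, ← Finset.card_product]
      congr 1
      ext q
      simp only [Finset.mem_filter, Finset.mem_univ, true_and, Finset.mem_product]
      constructor
      · rintro ⟨⟨h1, h2, h3⟩, h4⟩
        exact ⟨⟨h4, h2⟩, h1 ▸ h4, h3⟩
      · rintro ⟨⟨h4, h2⟩, h5, h3⟩
        exact ⟨⟨h4.trans h5.symm, h2, h3⟩, h4⟩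
    rw [hsq, Finset.filter_filter, Finset.filter_congr fun g _ => and_comm (a := Good v z L P flip S σ g)]
    split_ifs with h
    · push_cast; ring
    · rw [Finset.filter_false_of_mem fun g _ hg => h (by rw [← hg.1]; exact (hg.2 m).2)]
      simp
  simp only [hpt]
  rw [avg_add, avg_sub, avg_mul, avg_mul, avg_sum,
    Finset.sum_congr rfl fun r _ => avg_col L P flip S m r]
  simp only [Finset.sum_const, Finset.card_univ, ZMod.card, nsmul_eq_mul]
  have hfm := hf m
  have hfm1 : share S m ≤ 1 := share_le_one m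
  have hpi0 : 0 ≤ piF := Finset.prod_nonneg fun i _ => (hf i).le
  have hpi1 : piF ≤ 1 := Finset.prod_le_one (fun i _ => (hf i).le) fun i _ => share_le_one i
  have h1 := avg_card_pair_le (flip := flip) u hz hv hind hf m
  have h2 := avg_card_good_ge (flip := flip) u hz hv hind hf
  have hQ : (0 : ℝ) < Q := Nat.cast_pos.2 (Nat.pos_of_ne_zero (NeZero.ne _))
  have e0 : 0 ≤ e := nonneg_of_mul_nonneg_left (le_trans (by positivity) he) hQ
  have hd : (Q : ℝ) ^ (d - 1) * Q = (Q : ℝ) ^ d := by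
    rw [← pow_succ, Nat.sub_add_cancel (Fin.pos z)]
  push_cast at h1 h2 ⊢
  rw [show (2 : ℝ) * P * L = (Q : ℝ) by simp [Q]] at h1 h2 ⊢
  have hb : (cst v : ℝ) * ((P : ℝ) + L) * (Q : ℝ) ^ (d - 1) ≤ e * (Q : ℝ) ^ d := by
    rw [← hd, mul_comm ((Q : ℝ) ^ (d - 1)), ← mul_assoc]
    exact mul_le_mul_of_nonneg_right he (by positivity)
  have hA0 : 0 ≤ 2 * A := by positivity
  have h3 := mul_le_mul_of_nonneg_left
    (le_trans (mul_le_mul_of_nonneg_right (sub_le_sub_left hb _) hpi0) h2) hA0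
  refine le_trans (add_le_add_left (sub_le_sub h1 h3) _) ?_
  rw [pow_mul']
  have h4 : 3 * (cst v : ℝ) * ((P : ℝ) + L) * ((Q : ℝ) ^ (d - 1) * (Q : ℝ) ^ (d - 1)) ≤
      3 * e / share S m * ((Q : ℝ) ^ (d - 1) * (Q : ℝ) ^ d) := by
    refine le_trans ?_ (mul_le_mul_of_nonneg_right (le_div_self (by positivity) hfm hfm1) (by positivity))
    nlinarith [mul_le_mul_of_nonneg_left hb (pow_nonneg hQ.le (d - 1))]
  have h5 : piF ^ 2 / share S m ≤ 1 / share S m := by
    gcongr
    exact pow_le_one₀ hpi0 hpi1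
  have h6 : (Q : ℝ) * share S m * A ^ 2 = (Q : ℝ) ^ (d - 1) * (Q : ℝ) ^ d * (piF ^ 2 / share S m) := by
    rw [← hd, hA]; field_simp
  have h7 : 2 * A * (((Q : ℝ) ^ d - e * (Q : ℝ) ^ d) * piF) =
      2 * (1 - e) * ((Q : ℝ) ^ (d - 1) * (Q : ℝ) ^ d * (piF ^ 2 / share S m)) := by
    rw [hA]; field_simp
  have h8 := mul_le_mul_of_nonneg_left h5
    (show 0 ≤ 2 * e * ((Q : ℝ) ^ (d - 1) * (Q : ℝ) ^ d) by positivity)
  rw [h7]
  have h9 : 5 * e / share S m * ((Q : ℝ) ^ (d - 1) * (Q : ℝ) ^ d) =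
      3 * e / share S m * ((Q : ℝ) ^ (d - 1) * (Q : ℝ) ^ d) +
        2 * e * ((Q : ℝ) ^ (d - 1) * (Q : ℝ) ^ d) * (1 / share S m) := by
    field_simp; ring
  rw [h9]
  nlinarith

end Bounds

omit [NeZero L] [NeZero P] in
/-- **Labels of blocks with almost all expected residue vectors good and no residue overused.** -/
theorem exists_labelling (u : ι → Fin d) (hz : ∀ i, v i z ≠ 0)
    (hind : ∀ i j, i ≠ j → ∃ b, v i (u i) * v j b - v j (u i) * v i b ≠ 0) (hS : ∀ i, (S i).Nonempty)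
    {ε : ℝ} (hε : 0 < ε) :
    ∃ N0 : ℕ, ∀ (L P : ℕ) [NeZero L] [NeZero P], N0 ≤ L → N0 ≤ P →
      (∀ i, IsUnit (v i (u i) : ZMod (2 * P * L))) →
      ∃ σ : Fin P → α, ∃ G : Finset (Fin d → ZMod (2 * P * L)),
        (∀ g ∈ G, Good v z L P flip S σ g) ∧
        (∀ i r, (#{g ∈ G | lin (v i) g = r} : ℝ) ≤
          ((2 * P * L : ℕ) : ℝ) ^ (d - 1) * (∏ j, share S j) / share S i) ∧
        (1 - ε) * ((2 * P * L : ℕ) : ℝ) ^ d * (∏ j, share S j) ≤ #G := by
  have hf : ∀ i, 0 < share S i := fun i =>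
    div_pos (Nat.cast_pos.2 (hS i).card_pos) (Nat.cast_pos.2 Fintype.card_pos)
  set F := (1 : ℝ) / Fintype.card α
  have hfm : ∀ i, F ≤ share S i := fun i =>
    div_le_div_of_nonneg_right (Nat.one_le_cast.2 (hS i).card_pos) (Nat.cast_nonneg _)
  set J : ℝ := (Fintype.card ι : ℝ) with hJ
  set pi0 := F ^ Fintype.card ι with hpi0
  have hF : 0 < F := div_pos one_pos (Nat.cast_pos.2 Fintype.card_pos)
  set η := ε * pi0 / (4 * (J + 1)) with hη'
  have hJ0 : 0 ≤ J := Nat.cast_nonneg _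
  have hη : 0 < η := by positivity
  set e := min (η ^ 2 * F / 5) (ε / 4) with he'
  have he0 : 0 < e := lt_min (by positivity) (by positivity)
  obtain ⟨N0, hN0⟩ := exists_nat_ge (max ((cst v : ℝ) / e) (4 * (J + 1) / (ε * pi0)))
  refine ⟨N0, fun L P _ _ hL hP hv => ?_⟩
  set Q : ℕ := 2 * P * L
  have hw : ∀ a, 0 ≤ wgt α a := wgt_nonneg
  set piF := ∏ j, share S j with hpiF
  have hpi : 0 < piF := Finset.prod_pos fun i _ => hf i
  have hpile : pi0 ≤ piF := by
    rw [hpi0, ← Finset.card_univ, ← Finset.prod_const]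
    exact Finset.prod_le_prod (fun _ _ => hF.le) fun i _ => hfm i
  have hL' : (N0 : ℝ) ≤ L := Nat.cast_le.2 hL
  have hP' : (N0 : ℝ) ≤ P := Nat.cast_le.2 hP
  have hQ : (0 : ℝ) < Q := Nat.cast_pos.2 (Nat.pos_of_ne_zero (NeZero.ne _))
  have hc : (cst v : ℝ) ≤ e * N0 := by
    have := (le_max_left _ _).trans hN0
    rwa [div_le_iff₀ he0, mul_comm] at this
  have he : (cst v : ℝ) * ((P : ℝ) + L) ≤ e * (2 * P * L : ℕ) := by
    push_cast
    nlinarith [mul_le_mul_of_nonneg_left hL' (mul_nonneg he0.le (Nat.cast_nonneg P)),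
      mul_le_mul_of_nonneg_left hP' (mul_nonneg he0.le (Nat.cast_nonneg L)),
      mul_le_mul_of_nonneg_right hc (add_nonneg (Nat.cast_nonneg P) (Nat.cast_nonneg L) : (0 : ℝ) ≤ _)]
  let N : (Fin P → α) → ι → ZMod (2 * P * L) → ℕ := fun σ m r =>
    #{g | lin (v m) g = r ∧ Good v z L P flip S σ g}
  let A : ι → ℝ := fun m => (Q : ℝ) ^ (d - 1) * piF / share S m
  let t : ℝ := η * (Q : ℝ) ^ (d - 1)
  have ht : 0 < t := by positivity
  let Φ : (Fin P → α) → ℝ := fun σ => (#{g | Good v z L P flip S σ g} : ℝ) -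
    ∑ m, ((1 / (2 * t)) * ∑ r, ((N σ m r : ℝ) - A m * (if col L P flip σ r ∈ S m then 1 else 0)) ^ 2 +
      t / 2 * Q)
  obtain ⟨σ, hσ⟩ := exists_ge_avg hw wgt_sum Φ
  have hΦ : (1 - ε / 2) * (Q : ℝ) ^ d * piF ≤ Φ σ := by
    refine le_trans ?_ hσ
    simp only [Φ]
    rw [avg_sub, avg_sum]
    simp only [avg_add, avg_mul, avg_const wgt_sum]
    have h1 := avg_card_good_ge (flip := flip) u hz hv hind hf
    have h2 : ∀ m ∈ (Finset.univ : Finset ι), 1 / (2 * t) * avg (wgt α) (fun σ => ∑ r,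
          ((N σ m r : ℝ) - A m * (if col L P flip σ r ∈ S m then 1 else 0)) ^ 2) + t / 2 * Q ≤
        η * (Q : ℝ) ^ d := by
      intro m _
      have h := avg_dev_sq_le (flip := flip) u hz hv hind hf m e he
      have hd : (Q : ℝ) ^ (d - 1) * Q = (Q : ℝ) ^ d := by
        rw [← pow_succ, Nat.sub_add_cancel (Fin.pos z)]
      have h' : 5 * e / share S m ≤ η ^ 2 := by
        rw [div_le_iff₀ (hf m)]
        have : e ≤ η ^ 2 * F / 5 := min_le_left _ _
        nlinarith [mul_le_mul_of_nonneg_left (hfm m) (sq_nonneg η)]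
      refine le_trans (add_le_add (mul_le_mul_of_nonneg_left
        (h.trans (mul_le_mul_of_nonneg_right h' (by positivity)))
        (show (0 : ℝ) ≤ 1 / (2 * t) by positivity)) le_rfl) (le_of_eq ?_)
      simp only [t]
      rw [← hd]
      field_simp
      ring
    refine le_trans ?_ (sub_le_sub h1 (Finset.sum_le_sum h2))
    rw [Finset.sum_const, Finset.card_univ, nsmul_eq_mul, ← hJ]
    have hb : ((cst v * (P + L) * (2 * P * L) ^ (d - 1) : ℕ) : ℝ) ≤ ε / 4 * (Q : ℝ) ^ d := by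
      rw [Nat.cast_mul, Nat.cast_pow,
        show (Q : ℝ) ^ d = (Q : ℝ) * (Q : ℝ) ^ (d - 1) by rw [← pow_succ', Nat.sub_add_cancel (Fin.pos z)],
        ← mul_assoc]
      refine mul_le_mul_of_nonneg_right ?_ (by positivity)
      have := mul_le_mul_of_nonneg_right (min_le_right (η ^ 2 * F / 5) (ε / 4)) hQ.le
      have hQc : (Q : ℝ) = 2 * P * L := by simp [Q]
      push_cast at he ⊢
      rw [← hQc] at he
      linarith
    have hη1 : J * η ≤ ε / 4 * piF := by
      rw [hη', mul_div_assoc', div_le_iff₀ (by positivity)]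
      nlinarith [mul_le_mul_of_nonneg_left hpile (mul_nonneg hε.le hJ0), mul_nonneg hε.le hpi.le]
    nlinarith [mul_le_mul_of_nonneg_right hb hpi.le, mul_le_mul_of_nonneg_right hη1 (pow_nonneg hQ.le d)]
  -- deletion of the excess
  choose D hD hDc using fun mr : ι × ZMod (2 * P * L) =>
    Finset.exists_subset_card_eq (s := ({g | lin (v mr.1) g = mr.2 ∧ Good v z L P flip S σ g} : Finset _))
      (n := N σ mr.1 mr.2 - ⌊A mr.1⌋₊) (Nat.sub_le _ _)
  let G : Finset (Fin d → ZMod (2 * P * L)) :=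
    ({g | Good v z L P flip S σ g} : Finset _) \ Finset.univ.biUnion D
  refine ⟨σ, G, fun g hg => ?_, fun i r => ?_, ?_⟩
  · exact (Finset.mem_filter.1 (Finset.mem_sdiff.1 hg).1).2
  · have hsub : ({g ∈ G | lin (v i) g = r} : Finset _) ⊆
        ({g | lin (v i) g = r ∧ Good v z L P flip S σ g} : Finset _) \ D (i, r) := fun g hg => by
      simp only [G, Finset.mem_filter, Finset.mem_sdiff, Finset.mem_univ, true_and,
        Finset.mem_biUnion, not_exists] at hg ⊢
      exact ⟨⟨hg.2, hg.1.1⟩, hg.1.2 _⟩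
    refine le_trans (Nat.cast_le.2 (Finset.card_le_card hsub)) ?_
    rw [Finset.card_sdiff_of_subset (show D (i, r) ⊆ ({g | lin (v i) g = r ∧ Good v z L P flip S σ g} : Finset _)
      from hD (i, r)), hDc]
    refine le_trans (Nat.cast_le.2 ?_) (Nat.floor_le
      (show (0 : ℝ) ≤ A i from div_nonneg (mul_nonneg (pow_nonneg hQ.le _) hpi.le) (hf i).le))
    show N σ i r - (N σ i r - ⌊A i⌋₊) ≤ ⌊A i⌋₊
    omega
  · have hDle : ∀ mr : ι × ZMod (2 * P * L), (#(D mr) : ℝ) ≤
        1 / (2 * t) * ((N σ mr.1 mr.2 : ℝ) - A mr.1 * (if col L P flip σ mr.2 ∈ S mr.1 then 1 else 0)) ^ 2 +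
          t / 2 + ε / 4 * pi0 * (Q : ℝ) ^ d / ((J + 1) * Q) := by
      rintro ⟨m, r⟩
      rw [hDc]
      refine excess_le ht (by positivity) fun h => ⟨?_, ?_⟩
      · rw [if_pos]
        by_contra hc
        have hN : N σ m r = 0 := Finset.card_eq_zero.2
          (Finset.filter_false_of_mem fun g _ hg => hc (by rw [← hg.1]; exact (hg.2 m).2))
        exact absurd hN (Nat.pos_iff_ne_zero.1 ((Nat.zero_le _).trans_lt h))
      by_cases hsub : ∀ j, j = m
      · exfalso
        have hA : A m = (Q : ℝ) ^ (d - 1) := by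
          rw [show A m = (Q : ℝ) ^ (d - 1) * piF / share S m from rfl, hpiF, Fintype.prod_eq_single m
            fun j hj => absurd (hsub j) hj, mul_div_cancel_right₀ _ (hf m).ne']
        have hN : N σ m r ≤ (2 * P * L) ^ (d - 1) :=
          (Finset.card_le_card fun g hg => by
            simp only [Finset.mem_filter, Finset.mem_univ, true_and] at hg ⊢
            exact hg.1).trans (card_fibre_le (v m) (u m) (hv m) r)
        rw [hA, ← Nat.cast_pow, Nat.floor_natCast] at h
        exact absurd hN (not_le.2 h)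
      · obtain ⟨j, hj⟩ := not_forall.1 hsub
        obtain ⟨b, hb⟩ := hind j m hj
        have hd : 2 ≤ d := by
          by_contra h'
          exact hb (by rw [show b = u j from Fin.ext (by omega), sub_eq_zero, mul_comm])
        refine slack_ge hJ0 (Nat.one_le_cast.2 (Nat.pos_of_ne_zero (NeZero.ne _))) hd ?_ (by positivity)
        have hN1 := (le_max_right _ _).trans hN0
        rw [div_le_iff₀ (by positivity)] at hN1
        have hQN : (N0 : ℝ) ≤ Q := Nat.cast_le.2
          (hL.trans (Nat.le_mul_of_pos_left _ (Nat.mul_pos two_pos (Nat.pos_of_ne_zero (NeZero.ne P)))))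
        calc J + 1 = 4 * (J + 1) * (1 / 4) := by ring
          _ ≤ (N0 : ℝ) * (ε * pi0) * (1 / 4) := mul_le_mul_of_nonneg_right hN1 (by norm_num)
          _ = ε / 4 * pi0 * N0 := by ring
          _ ≤ _ := mul_le_mul_of_nonneg_left hQN (by positivity)
    have hG : (#{g | Good v z L P flip S σ g} : ℝ) ≤ #G + ∑ mr, (#(D mr) : ℝ) := by
      rw [← Nat.cast_sum, ← Nat.cast_add, Nat.cast_le]
      exact (Finset.card_le_card_sdiff_add_card (t := Finset.univ.biUnion D)).trans
        (Nat.add_le_add_left Finset.card_biUnion_le _)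
    have hS := Finset.sum_le_sum fun mr (_ : mr ∈ (Finset.univ : Finset (ι × ZMod (2 * P * L)))) => hDle mr
    rw [Finset.sum_add_distrib, Finset.sum_add_distrib, Finset.sum_const, Finset.sum_const,
      Finset.card_univ, Fintype.card_prod, ZMod.card, nsmul_eq_mul, nsmul_eq_mul, ← Finset.mul_sum,
      Nat.cast_mul, ← hJ] at hS
    simp only [Fintype.sum_prod_type] at hS hG
    simp only [Φ, Finset.sum_add_distrib, Finset.sum_const, Finset.card_univ, nsmul_eq_mul,
      ← Finset.mul_sum, ← hJ] at hΦ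
    have hlast : J * (Q : ℝ) * (ε / 4 * pi0 * (Q : ℝ) ^ d / ((J + 1) * Q)) ≤ ε / 4 * (Q : ℝ) ^ d * piF := by
      rw [show J * (Q : ℝ) * (ε / 4 * pi0 * (Q : ℝ) ^ d / ((J + 1) * Q)) =
        J / (J + 1) * (ε / 4 * (Q : ℝ) ^ d * pi0) by field_simp]
      exact (mul_le_of_le_one_left (by positivity) ((div_le_one (by positivity)).2 (by linarith))).trans
        (mul_le_mul_of_nonneg_left hpile (by positivity))
    rw [mul_assoc J (Q : ℝ) (t / 2), mul_comm (Q : ℝ) (t / 2)] at hS
    have hmain := loss_le hΦ hG hS hlast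
    have : 0 ≤ ε * (Q : ℝ) ^ d * piF := by positivity
    show (1 - ε) * (Q : ℝ) ^ d * piF ≤ #G
    linarith

end Vale.Agent.P130.Flat.Pack
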